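import Mathlib
import Vale.Agent.Lib.P123.IsometryEllipse

namespace Vale.Agent.Results.P123.IsometryEllipse

/-- The numerical range `W(A) = {⟨A x, x⟩ : ‖x‖ = 1}`. The problem's inner product is linear in the
first argument, Mathlib's `inner ℂ x y` is linear in the second one, so `⟨A x, x⟩` is
`inner ℂ x (A x)`. -/
def numRange {H : Type*} [NormedAddCommGroup H] [InnerProductSpace ℂ H] (A : H →L[ℂ] H) : Set ℂ :=
  {z | ∃ x : H, ‖x‖ = 1 ∧ z = inner ℂ x (A x)}

/-- For a non-surjective isometry `V` of a complex Hilbert space (for instance the unilateral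
shift) and `|α| < 1`, the operator `A = V + α V*` satisfies
`‖P(A)‖ ≤ sqrt (1 + |α|^2) * sup_{W(A)} |P|` for every polynomial `P`. -/
theorem result {H : Type*} [NormedAddCommGroup H] [InnerProductSpace ℂ H] [CompleteSpace H]
    (V : H →L[ℂ] H) (hV : ∀ x, ‖V x‖ = ‖x‖) (hns : ¬ Function.Surjective V)
    (α : ℂ) (hα : ‖α‖ < 1) (P : Polynomial ℂ) (M : ℝ)
    (hM : ∀ z ∈ numRange (V + α • ContinuousLinearMap.adjoint V), ‖P.eval z‖ ≤ M) :
    ‖Polynomial.aeval (V + α • ContinuousLinearMap.adjoint V) P‖ ≤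
      Real.sqrt (1 + ‖α‖ ^ 2) * M := by
  have hV' : star V * V = 1 := by
    rw [ContinuousLinearMap.star_eq_adjoint]
    exact (ContinuousLinearMap.norm_map_iff_adjoint_comp_self V).mp hV
  rw [← ContinuousLinearMap.star_eq_adjoint] at hM ⊢
  exact Vale.Agent.Lib.P123.main_bound hV' hns α hα P M (fun x hx => hM _ ⟨x, hx, rfl⟩)

end Vale.Agent.Results.P123.IsometryEllipse
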